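import Vale.Agent.P319.S2.H510.Defs2

/-! P319, block S2, piece 9: the number of colours. -/

namespace Vale.Agent.P319.S2

open Finset Matrix Vale.Agent.P319.SC Vale.Agent.P319.SC.H323 Vale.Agent.P319.SC.H235

set_option linter.all false

theorem count : CountStmt := by
  intro V ι _ _ _ k 𝒟 hk Rr hR x y
  set P := 𝒟.cls (𝒟.c1 y) with hP
  set Rl := 𝒟.rels (𝒟.c1 x) (𝒟.c1 y) with hRl
  have hmaps : ∀ z ∈ P, 𝒟.c2 x z ∈ Rl := by
    intro z hz
    rw [hRl, 𝒟.mem_rels]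
    exact ⟨x, z, rfl, (𝒟.mem_cls _ _).1 hz, rfl⟩
  set a : ι → ℝ := fun i => ∑ z ∈ P with 𝒟.c2 x z = i, chi (Rr x z) with ha
  have h1 : ∑ z ∈ P, chi (Rr x z) = ∑ i ∈ Rl, a i :=
    (sum_fiberwise_of_maps_to hmaps _).symm
  have h2 : coll 𝒟 Rr x y = ∑ i ∈ Rl, a i * (𝒟.val x i : ℝ) := by
    unfold coll
    rw [← sum_fiberwise_of_maps_to hmaps]
    apply sum_congr rfl
    intro i _
    rw [ha, sum_mul]
    apply sum_congr rfl
    intro z hz
    rw [(mem_filter.1 hz).2]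
  have h0 : ∀ i, 0 ≤ a i := fun i => sum_nonneg fun z _ => chi_nonneg _
  have h3 : ∀ i, a i ≤ (𝒟.val x i : ℝ) := by
    intro i
    calc a i ≤ ∑ z ∈ P with 𝒟.c2 x z = i, (1 : ℝ) := sum_le_sum fun z _ => chi_le_one _
      _ = ((P.filter fun z => 𝒟.c2 x z = i).card : ℝ) := by rw [sum_const, nsmul_eq_mul, mul_one]
      _ ≤ (𝒟.val x i : ℝ) := by
          have : (P.filter fun z => 𝒟.c2 x z = i).card ≤ 𝒟.val x i :=
            card_le_card (filter_subset_filter _ (subset_univ _))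
          exact_mod_cast this
  calc (∑ z ∈ P, chi (Rr x z)) ^ 2 = (∑ i ∈ Rl, a i) ^ 2 := by rw [h1]
    _ ≤ (Rl.card : ℝ) * ∑ i ∈ Rl, a i ^ 2 := sq_sum_le_card_mul_sum_sq
    _ ≤ (Rl.card : ℝ) * ∑ i ∈ Rl, a i * (𝒟.val x i : ℝ) := by
        apply mul_le_mul_of_nonneg_left _ (Nat.cast_nonneg _)
        apply sum_le_sum
        intro i _
        rw [sq]
        exact mul_le_mul_of_nonneg_left (h3 i) (h0 i)
    _ = (Rl.card : ℝ) * coll 𝒟 Rr x y := by rw [h2]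

end Vale.Agent.P319.S2
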